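import Mathlib

namespace Vale.Agent.Results.P033.RunBound

open Finset

/-- The circulant matrix with first row `h`: the entry at row i and column j is h (j - i),
indices taken modulo `n`. -/
def circ (n : ℕ) (h : ZMod n → ℤ) : Matrix (ZMod n) (ZMod n) ℤ :=
  Matrix.of fun i j => h (j - i)

/-- `h` is the first row of a real circulant Hadamard matrix of order `n`:
all entries are `1` or `-1` and `H * Hᵀ = n • 1` for `H = circ n h`. -/
def IsCirculantHadamardRow (n : ℕ) [NeZero n] (h : ZMod n → ℤ) : Prop :=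
  (∀ j, h j = 1 ∨ h j = -1) ∧
    circ n h * (circ n h).transpose = (n : ℤ) • (1 : Matrix (ZMod n) (ZMod n) ℤ)

variable {n : ℕ} [NeZero n] {h : ZMod n → ℤ}

theorem autocorr (hH : IsCirculantHadamardRow n h) (t : ZMod n) :
    ∑ j, h j * h (j + t) = if t = 0 then (n : ℤ) else 0 := by
  have key := congrFun (congrFun hH.2 0) (-t)
  simp only [circ, Matrix.mul_apply, Matrix.transpose_apply, Matrix.of_apply, sub_zero,
    sub_neg_eq_add, Matrix.smul_apply, Matrix.one_apply, smul_eq_mul] at key
  rw [key]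
  by_cases ht : t = 0
  · simp [ht]
  · have : ¬ (0 : ZMod n) = -t := fun h0 => ht (by simpa using h0.symm)
    simp [ht, this]

theorem autocorr_shift (hH : IsCirculantHadamardRow n h) (a b : ZMod n) :
    ∑ j, h (j + a) * h (j + b) = if b - a = 0 then (n : ℤ) else 0 := by
  rw [← autocorr hH (b - a)]
  refine Fintype.sum_equiv (Equiv.addRight a) _ _ (fun j => ?_)
  simp [Equiv.addRight]

omit [NeZero n] in
theorem natCast_sub_eq_zero_iff {m i i' : ℕ} (hm : m ≤ n) (hi : i < m) (hi' : i' < m) :
    ((i' : ZMod n) - (i : ZMod n) = 0) ↔ i = i' := by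
  rw [sub_eq_zero, ZMod.natCast_eq_natCast_iff']
  constructor
  · intro hmod
    rw [Nat.mod_eq_of_lt (by omega), Nat.mod_eq_of_lt (by omega)] at hmod
    exact hmod.symm
  · rintro rfl
    rfl

/-- Second-moment identity for window sums: for every window length `m ≤ n`,
the squares of the `n` cyclic window sums add up to `m * n`. -/
theorem window_sq_sum (hH : IsCirculantHadamardRow n h) (m : ℕ) (hm : m ≤ n) :
    ∑ j, (∑ i ∈ range m, h (j + i)) ^ 2 = (m : ℤ) * n := by
  have h1 : ∀ j : ZMod n, (∑ i ∈ range m, h (j + i)) ^ 2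
      = ∑ i ∈ range m, ∑ i' ∈ range m, h (j + i) * h (j + i') := by
    intro j
    rw [sq, Finset.sum_mul_sum]
  simp only [h1]
  rw [Finset.sum_comm]
  have h2 : ∀ i ∈ range m, ∑ j : ZMod n, ∑ i' ∈ range m, h (j + i) * h (j + i')
      = (n : ℤ) := by
    intro i hi
    rw [Finset.sum_comm]
    have h3 : ∀ i' ∈ range m, ∑ j : ZMod n, h (j + i) * h (j + i')
        = if i = i' then (n : ℤ) else 0 := by
      intro i' hi'
      rw [autocorr_shift hH]
      have := natCast_sub_eq_zero_iff (n := n) hm (mem_range.mp hi) (mem_range.mp hi')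
      simp only [this]
    rw [Finset.sum_congr rfl h3]
    simp [hi]
  rw [Finset.sum_congr rfl h2]
  simp

theorem sq_eq_one (hH : IsCirculantHadamardRow n h) (j : ZMod n) : h j ^ 2 = 1 := by
  rcases hH.1 j with hj | hj <;> simp [hj]

/-- The order is a perfect square: the square of the row sum equals `n`. -/
theorem rowsum_sq (hH : IsCirculantHadamardRow n h) : (∑ j, h j) ^ 2 = (n : ℤ) := by
  have hw := window_sq_sum hH n le_rfl
  have hfull : ∀ j : ZMod n, ∑ i ∈ range n, h (j + i) = ∑ k, h k := by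
    intro j
    have hinj : Set.InjOn (fun i : ℕ => j + (i : ZMod n)) (range n : Finset ℕ) := by
      intro x hx y hy hxy
      have hxy' : (x : ZMod n) = (y : ZMod n) := add_left_cancel hxy
      rw [ZMod.natCast_eq_natCast_iff'] at hxy'
      rw [Nat.mod_eq_of_lt (mem_range.mp (mem_coe.mp hx)),
        Nat.mod_eq_of_lt (mem_range.mp (mem_coe.mp hy))] at hxy'
      exact hxy'
    have himg : (range n).image (fun i : ℕ => j + (i : ZMod n)) = Finset.univ := by
      apply Finset.eq_univ_of_card
      rw [Finset.card_image_of_injOn hinj, card_range, ZMod.card]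
    rw [← himg, Finset.sum_image hinj]
  simp only [hfull] at hw
  rw [Finset.sum_const, Finset.card_univ, ZMod.card, nsmul_eq_mul] at hw
  have hn : (n : ℤ) ≠ 0 := by exact_mod_cast NeZero.ne n
  exact mul_left_cancel₀ hn hw

/-- A run of `L` equal entries forces the bound (L - m + 1) * m ≤ n for every window length `m ≤ L`. -/
theorem run_window (hH : IsCirculantHadamardRow n h) (a : ZMod n) (L : ℕ) (hL : L ≤ n)
    (hrun : ∀ i : ℕ, i < L → h (a + i) = h a) (m : ℕ) (hm1 : 1 ≤ m) (hmL : m ≤ L) :
    (L - m + 1) * m ≤ n := by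
  have hw := window_sq_sum hH m (hmL.trans hL)
  have hinj : Set.InjOn (fun s : ℕ => a + (s : ZMod n)) (range (L - m + 1) : Finset ℕ) := by
    intro x hx y hy hxy
    have hx' := mem_range.mp (mem_coe.mp hx)
    have hy' := mem_range.mp (mem_coe.mp hy)
    have hxy' : (x : ZMod n) = (y : ZMod n) := add_left_cancel hxy
    rw [ZMod.natCast_eq_natCast_iff'] at hxy'
    rw [Nat.mod_eq_of_lt (by omega), Nat.mod_eq_of_lt (by omega)] at hxy'
    exact hxy'
  have hval : ∀ s ∈ range (L - m + 1),
      (∑ i ∈ range m, h ((a + (s : ZMod n)) + i)) ^ 2 = (m : ℤ) ^ 2 := by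
    intro s hs
    have hs' := mem_range.mp hs
    have hc : ∀ i ∈ range m, h ((a + (s : ZMod n)) + i) = h a := by
      intro i hi
      have hi' := mem_range.mp hi
      have := hrun (s + i) (by omega)
      rw [← this]
      congr 1
      push_cast
      ring
    rw [Finset.sum_congr rfl hc, Finset.sum_const, card_range, nsmul_eq_mul, mul_pow,
      sq_eq_one hH, mul_one]
  have hle : ∑ j ∈ (range (L - m + 1)).image (fun s : ℕ => a + (s : ZMod n)),
      (∑ i ∈ range m, h (j + i)) ^ 2 ≤ ∑ j, (∑ i ∈ range m, h (j + i)) ^ 2 :=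
    Finset.sum_le_sum_of_subset_of_nonneg (Finset.subset_univ _) (fun _ _ _ => sq_nonneg _)
  rw [Finset.sum_image hinj, Finset.sum_congr rfl hval, Finset.sum_const, card_range,
    nsmul_eq_mul, hw] at hle
  have hmpos : (0 : ℤ) < m := by exact_mod_cast hm1
  have h5 : ((L - m + 1 : ℕ) : ℤ) * m ≤ n := by
    have h6 : ((L - m + 1 : ℕ) : ℤ) * m * m ≤ (n : ℤ) * m := by nlinarith
    exact le_of_mul_le_mul_right h6 hmpos
  exact_mod_cast h5

/-- **Run-length bound.** If `h` is the first row of a real circulant Hadamard matrix of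
order `n` and `h` is constant on `L ≤ n` cyclically consecutive positions `a, a+1, ..., a+L-1`,
then we get the bound (L + 1)^2 ≤ 4 * n, that is, L ≤ 2 * sqrt n - 1. -/
theorem result (n : ℕ) [NeZero n] (h : ZMod n → ℤ) (hH : IsCirculantHadamardRow n h)
    (a : ZMod n) (L : ℕ) (hL : L ≤ n) (hrun : ∀ i : ℕ, i < L → h (a + i) = h a) :
    (L + 1) ^ 2 ≤ 4 * n := by
  have hnpos : 0 < n := Nat.pos_of_ne_zero (NeZero.ne n)
  obtain ⟨k, rfl | rfl⟩ := Nat.even_or_odd' L
  · -- L = 2k
    rcases Nat.eq_zero_or_pos k with rfl | hk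
    · omega
    · have h1 := run_window hH a (2 * k) hL hrun k hk (by omega)
      have h2 : (k + 1) * k ≤ n := by
        have : 2 * k - k + 1 = k + 1 := by omega
        rwa [this] at h1
      -- n is a perfect square
      have hsq := rowsum_sq hH
      set S := |∑ j, h j| with hS
      have hS2 : S ^ 2 = (n : ℤ) := by rw [hS, sq_abs, hsq]
      have hS0 : 0 ≤ S := abs_nonneg _
      have h3 : ((k : ℤ) + 1) * k ≤ S ^ 2 := by rw [hS2]; exact_mod_cast h2
      have h4 : (k : ℤ) < S := by
        by_contra hcon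
        have hcon := not_lt.mp hcon
        have hk0 : (0 : ℤ) < k := by exact_mod_cast hk
        nlinarith
      have h5 : ((k : ℤ) + 1) ^ 2 ≤ S ^ 2 := by
        have : (k : ℤ) + 1 ≤ S := by omega
        have hk0 : (0 : ℤ) ≤ (k : ℤ) + 1 := by positivity
        nlinarith
      have h6 : ((2 * k + 1 : ℕ) : ℤ) ^ 2 ≤ 4 * (n : ℤ) := by
        rw [← hS2]
        push_cast
        have hk0 : (0 : ℤ) ≤ k := by positivity
        nlinarith
      exact_mod_cast h6
  · -- L = 2k + 1
    have h1 := run_window hH a (2 * k + 1) hL hrun (k + 1) (by omega) (by omega)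
    have h2 : (k + 1) * (k + 1) ≤ n := by
      have : 2 * k + 1 - (k + 1) + 1 = k + 1 := by omega
      rwa [this] at h1
    nlinarith

end Vale.Agent.Results.P033.RunBound
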