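import Vale.Agent.Results.P033.RunBound

/-!
P033: no long monochromatic arithmetic progression in a circulant Hadamard row

If `h` is the first row of a real circulant Hadamard matrix of order `n` and `h` is constant on
an arithmetic progression `a, a+d, ..., a+(L-1)d` of `L` distinct positions of `ZMod n`, then
`3 M L + 2 ≤ 3 n + 2 M^2` for every `1 ≤ M ≤ L`, and hence `3 L^2 + 4 ≤ 8 n`.  For `d = 1` this
is a bound on runs: `L ≤ sqrt (8 n / 3)`.

Proof.  For window sums of `M` terms along the progression, the squares of all `n` translates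
add up to `M n` (flat autocorrelation).  The `L - M + 1` windows inside the progression have
square `M^2`; a window sticking out by `t < M / 2` terms on either side still has square at
least `(M - 2 t)^2`.  Summing gives `(L - M + 1) M^2 + 2 sum_t (M - 2 t)^2 ≤ M n`, and
`M^2 + 2 sum_{1 ≤ t < M/2} (M - 2 t)^2 = M (M^2 + 2) / 3`.
-/

namespace Vale.Agent.Results.P033.ProgressionBound

open Finset
open Vale.Agent.Results.P033.RunBound

variable {n : ℕ} [NeZero n] {h : ZMod n → ℤ}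

/-- Second-moment identity for window sums along a progression with difference `d`. -/
theorem ap_window_sq_sum (hH : IsCirculantHadamardRow n h) (d : ZMod n) (m : ℕ)
    (hinj : ∀ i i' : ℕ, i < m → i' < m → (i : ZMod n) * d = (i' : ZMod n) * d → i = i') :
    ∑ j, (∑ i ∈ range m, h (j + (i : ZMod n) * d)) ^ 2 = (m : ℤ) * n := by
  have h1 : ∀ j : ZMod n, (∑ i ∈ range m, h (j + (i : ZMod n) * d)) ^ 2
      = ∑ i ∈ range m, ∑ i' ∈ range m,
          h (j + (i : ZMod n) * d) * h (j + (i' : ZMod n) * d) := by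
    intro j
    rw [sq, Finset.sum_mul_sum]
  simp only [h1]
  rw [Finset.sum_comm]
  have h2 : ∀ i ∈ range m, ∑ j : ZMod n, ∑ i' ∈ range m,
      h (j + (i : ZMod n) * d) * h (j + (i' : ZMod n) * d) = (n : ℤ) := by
    intro i hi
    rw [Finset.sum_comm]
    have h3 : ∀ i' ∈ range m, ∑ j : ZMod n,
        h (j + (i : ZMod n) * d) * h (j + (i' : ZMod n) * d)
        = if i = i' then (n : ℤ) else 0 := by
      intro i' hi'
      rw [autocorr_shift hH]
      have : ((i' : ZMod n) * d - (i : ZMod n) * d = 0) ↔ i = i' := by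
        rw [sub_eq_zero]
        constructor
        · intro e
          exact (hinj i' i (mem_range.mp hi') (mem_range.mp hi) e).symm
        · rintro rfl
          rfl
      simp only [this]
    rw [Finset.sum_congr rfl h3]
    simp [hi]
  rw [Finset.sum_congr rfl h2]
  simp

theorem sum_step (M : ℤ) (q : ℕ) :
    ∑ v ∈ range (q + 1), (M + 2 - 2 * ((v : ℤ) + 1)) ^ 2
      = M ^ 2 + ∑ v ∈ range q, (M - 2 * ((v : ℤ) + 1)) ^ 2 := by
  rw [Finset.sum_range_succ', add_comm]
  congr 1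
  · push_cast; ring
  · apply Finset.sum_congr rfl
    intro v _
    push_cast; ring

/-- `3 (M^2 + 2 sum_{v < q} (M - 2 (v+1))^2) = M (M^2 + 2)` for `M = 2q+1` and `M = 2q+2`. -/
theorem closed_form (q : ℕ) :
    (3 * ((2 * (q : ℤ) + 1) ^ 2
        + 2 * ∑ v ∈ range q, ((2 * (q : ℤ) + 1) - 2 * ((v : ℤ) + 1)) ^ 2)
      = (2 * (q : ℤ) + 1) * ((2 * (q : ℤ) + 1) ^ 2 + 2)) ∧
    (3 * ((2 * (q : ℤ) + 2) ^ 2
        + 2 * ∑ v ∈ range q, ((2 * (q : ℤ) + 2) - 2 * ((v : ℤ) + 1)) ^ 2)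
      = (2 * (q : ℤ) + 2) * ((2 * (q : ℤ) + 2) ^ 2 + 2)) := by
  induction q with
  | zero => simp
  | succ q ih =>
    obtain ⟨ih1, ih2⟩ := ih
    have e1 : (2 * ((q + 1 : ℕ) : ℤ) + 1) = (2 * (q : ℤ) + 1) + 2 := by push_cast; ring
    have e2 : (2 * ((q + 1 : ℕ) : ℤ) + 2) = (2 * (q : ℤ) + 2) + 2 := by push_cast; ring
    constructor
    · rw [e1, sum_step]
      linear_combination ih1
    · rw [e2, sum_step]
      linear_combination ih2

theorem closed_form' (M : ℕ) (hM : 1 ≤ M) :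
    3 * ((M : ℤ) ^ 2 + 2 * ∑ v ∈ range ((M - 1) / 2), ((M : ℤ) - 2 * ((v : ℤ) + 1)) ^ 2)
      = (M : ℤ) * ((M : ℤ) ^ 2 + 2) := by
  rcases Nat.even_or_odd' (M - 1) with ⟨q, hq | hq⟩
  · have hMq : M = 2 * q + 1 := by omega
    have hT : (M - 1) / 2 = q := by omega
    rw [hT, hMq]
    push_cast
    exact (closed_form q).1
  · have hMq : M = 2 * q + 2 := by omega
    have hT : (M - 1) / 2 = q := by omega
    rw [hT, hMq]
    push_cast
    exact (closed_form q).2

/-- The main inequality for a window length `M`. -/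
theorem ap_bound (hH : IsCirculantHadamardRow n h) (a d : ZMod n) (L : ℕ)
    (hinj : ∀ i i' : ℕ, i < L → i' < L → (i : ZMod n) * d = (i' : ZMod n) * d → i = i')
    (hrun : ∀ i : ℕ, i < L → h (a + (i : ZMod n) * d) = h a)
    (M : ℕ) (hM1 : 1 ≤ M) (hML : M ≤ L) :
    3 * M * L + 2 ≤ 3 * n + 2 * M ^ 2 := by
  obtain ⟨T, hT⟩ : ∃ T, T = (M - 1) / 2 := ⟨_, rfl⟩
  have hT2 : 2 * T + 1 ≤ M := by omega
  obtain ⟨K, hK⟩ : ∃ K, K = L - M + 1 := ⟨_, rfl⟩
  obtain ⟨a0, ha0⟩ : ∃ a0 : ZMod n, a0 = a - (T : ZMod n) * d := ⟨_, rfl⟩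
  obtain ⟨c, hc⟩ : ∃ c, c = h a := ⟨_, rfl⟩
  have hc2 : c ^ 2 = 1 := by rw [hc]; exact sq_eq_one hH a
  have hcabs : |c| = 1 := by
    rcases hH.1 a with e | e <;> simp [hc, e]
  -- the values of `h` along the progression from `a0`
  have hval : ∀ k : ℕ, T ≤ k → k < T + L → h (a0 + (k : ZMod n) * d) = c := by
    intro k hk1 hk2
    have := hrun (k - T) (by omega)
    rw [hc, ← this]
    congr 1
    rw [ha0, Nat.cast_sub hk1]
    ring
  -- sums of few signs are small
  have habs : ∀ (f : ℕ → ZMod n) (t : ℕ), |∑ i ∈ range t, h (f i)| ≤ (t : ℤ) := by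
    intro f t
    calc |∑ i ∈ range t, h (f i)| ≤ ∑ i ∈ range t, |h (f i)| := Finset.abs_sum_le_sum_abs _ _
      _ = ∑ i ∈ range t, (1 : ℤ) := by
          apply Finset.sum_congr rfl
          intro i _
          rcases hH.1 (f i) with e | e <;> simp [e]
      _ = t := by simp
  -- a window with `t` terms outside the progression
  have hlow : ∀ (X : ℤ) (t : ℕ), |X| ≤ (t : ℤ) → 2 * t + 1 ≤ M →
      ((M : ℤ) - 2 * (t : ℤ)) ^ 2 ≤ (X + ((M : ℤ) - t) * c) ^ 2 := by
    intro X t hX ht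
    have h1 : (X + ((M : ℤ) - t) * c) ^ 2 = (c * X + ((M : ℤ) - t)) ^ 2 := by
      linear_combination (((M : ℤ) - t) ^ 2 - X ^ 2) * hc2
    rw [h1]
    have h2 : |c * X| ≤ (t : ℤ) := by rw [abs_mul, hcabs, one_mul]; exact hX
    have h3 : -(t : ℤ) ≤ c * X := (abs_le.mp h2).1
    have h4 : (0 : ℤ) ≤ (M : ℤ) - 2 * (t : ℤ) := by
      have : ((2 * t + 1 : ℕ) : ℤ) ≤ (M : ℤ) := by exact_mod_cast ht
      push_cast at this
      linarith
    have h5 : (M : ℤ) - 2 * (t : ℤ) ≤ c * X + ((M : ℤ) - t) := by linarith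
    exact pow_le_pow_left₀ h4 h5 2
  -- the window sums
  have hSex : ∃ S : ℕ → ℤ,
      ∀ u, S u = ∑ i ∈ range M, h (a0 + ((u + i : ℕ) : ZMod n) * d) :=
    ⟨fun u => ∑ i ∈ range M, h (a0 + ((u + i : ℕ) : ZMod n) * d), fun _ => rfl⟩
  obtain ⟨S, hS⟩ := hSex
  have hfex : ∃ f : ℕ → ℤ, ∀ v : ℕ, f v = ((M : ℤ) - 2 * ((v : ℤ) + 1)) ^ 2 :=
    ⟨fun v => ((M : ℤ) - 2 * ((v : ℤ) + 1)) ^ 2, fun _ => rfl⟩
  obtain ⟨f, hf⟩ := hfex
  -- (i) windows sticking out on the left
  have hleft : ∀ u, u < T → f (T - 1 - u) ≤ S u ^ 2 := by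
    intro u hu
    obtain ⟨t, ht⟩ : ∃ t, t = T - u := ⟨_, rfl⟩
    have hsplit : S u = ∑ i ∈ range t, h (a0 + ((u + i : ℕ) : ZMod n) * d)
        + ∑ i ∈ range (M - t), h (a0 + ((u + (t + i) : ℕ) : ZMod n) * d) := by
      rw [hS]
      have hMt : M = t + (M - t) := by omega
      conv_lhs => rw [hMt]
      exact Finset.sum_range_add _ _ _
    have hin : ∑ i ∈ range (M - t), h (a0 + ((u + (t + i) : ℕ) : ZMod n) * d)
        = ((M : ℤ) - t) * c := by
      have : ∀ i ∈ range (M - t), h (a0 + ((u + (t + i) : ℕ) : ZMod n) * d) = c := by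
        intro i hi
        have hi' := mem_range.mp hi
        exact hval _ (by omega) (by omega)
      rw [Finset.sum_congr rfl this, Finset.sum_const, card_range, nsmul_eq_mul,
        Nat.cast_sub (by omega)]
    rw [hsplit, hin]
    have hft : f (T - 1 - u) = ((M : ℤ) - 2 * (t : ℤ)) ^ 2 := by
      rw [hf]
      have : ((T - 1 - u : ℕ) : ℤ) + 1 = (t : ℤ) := by
        have : T - 1 - u + 1 = t := by omega
        exact_mod_cast this
      simp only [this]
    rw [hft]
    exact hlow _ t (habs _ t) (by omega)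
  -- (ii) windows inside the progression
  have hmid : ∀ u, u < K → S (T + u) ^ 2 = (M : ℤ) ^ 2 := by
    intro u hu
    have : ∀ i ∈ range M, h (a0 + ((T + u + i : ℕ) : ZMod n) * d) = c := by
      intro i hi
      have hi' := mem_range.mp hi
      exact hval _ (by omega) (by omega)
    rw [hS]
    show (∑ i ∈ range M, h (a0 + ((T + u + i : ℕ) : ZMod n) * d)) ^ 2 = (M : ℤ) ^ 2
    rw [Finset.sum_congr rfl this, Finset.sum_const, card_range, nsmul_eq_mul, mul_pow, hc2,
      mul_one]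
  -- (iii) windows sticking out on the right
  have hright : ∀ v, v < T → f v ≤ S (T + K + v) ^ 2 := by
    intro v hv
    obtain ⟨t, ht⟩ : ∃ t, t = v + 1 := ⟨_, rfl⟩
    have hsplit : S (T + K + v) = ∑ i ∈ range (M - t), h (a0 + ((T + K + v + i : ℕ) : ZMod n) * d)
        + ∑ i ∈ range t, h (a0 + ((T + K + v + (M - t + i) : ℕ) : ZMod n) * d) := by
      rw [hS]
      have hMt : M = (M - t) + t := by omega
      conv_lhs => rw [hMt]
      exact Finset.sum_range_add _ _ _
    have hin : ∑ i ∈ range (M - t), h (a0 + ((T + K + v + i : ℕ) : ZMod n) * d)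
        = ((M : ℤ) - t) * c := by
      have : ∀ i ∈ range (M - t), h (a0 + ((T + K + v + i : ℕ) : ZMod n) * d) = c := by
        intro i hi
        have hi' := mem_range.mp hi
        exact hval _ (by omega) (by omega)
      rw [Finset.sum_congr rfl this, Finset.sum_const, card_range, nsmul_eq_mul,
        Nat.cast_sub (by omega)]
    rw [hsplit, hin, add_comm]
    have hft : f v = ((M : ℤ) - 2 * (t : ℤ)) ^ 2 := by
      rw [hf, ht]
      push_cast
      ring
    rw [hft]
    exact hlow _ t (habs _ t) (by omega)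
  -- the total over the `T + K + T` windows
  have hlower : (K : ℤ) * (M : ℤ) ^ 2 + 2 * ∑ v ∈ range T, f v
      ≤ ∑ u ∈ range (T + K + T), S u ^ 2 := by
    rw [Finset.sum_range_add, Finset.sum_range_add]
    have p1 : ∑ v ∈ range T, f v ≤ ∑ u ∈ range T, S u ^ 2 := by
      rw [← Finset.sum_range_reflect f T]
      apply Finset.sum_le_sum
      intro u hu
      exact hleft u (mem_range.mp hu)
    have p2 : ∑ u ∈ range K, S (T + u) ^ 2 = (K : ℤ) * (M : ℤ) ^ 2 := by
      rw [Finset.sum_congr rfl (fun u hu => hmid u (mem_range.mp hu)), Finset.sum_const,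
        card_range, nsmul_eq_mul]
    have p3 : ∑ v ∈ range T, f v ≤ ∑ v ∈ range T, S (T + K + v) ^ 2 := by
      apply Finset.sum_le_sum
      intro v hv
      exact hright v (mem_range.mp hv)
    linarith
  -- comparison with the sum over all translates
  have hupper : ∑ u ∈ range (T + K + T), S u ^ 2 ≤ (M : ℤ) * n := by
    have hw := ap_window_sq_sum hH d M
      (fun i i' hi hi' e => hinj i i' (by omega) (by omega) e)
    have hSw : ∀ u : ℕ, S u
        = ∑ i ∈ range M, h ((a0 + (u : ZMod n) * d) + (i : ZMod n) * d) := by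
      intro u
      rw [hS]
      apply Finset.sum_congr rfl
      intro i _
      congr 1
      push_cast
      ring
    have hinjOn : Set.InjOn (fun u : ℕ => a0 + (u : ZMod n) * d)
        (range (T + K + T) : Finset ℕ) := by
      intro x hx y hy hxy
      have hx' := mem_range.mp (mem_coe.mp hx)
      have hy' := mem_range.mp (mem_coe.mp hy)
      exact hinj x y (by omega) (by omega) (add_left_cancel hxy)
    have hle : ∑ j ∈ (range (T + K + T)).image (fun u : ℕ => a0 + (u : ZMod n) * d),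
        (∑ i ∈ range M, h (j + (i : ZMod n) * d)) ^ 2
        ≤ ∑ j, (∑ i ∈ range M, h (j + (i : ZMod n) * d)) ^ 2 :=
      Finset.sum_le_sum_of_subset_of_nonneg (Finset.subset_univ _) (fun _ _ _ => sq_nonneg _)
    rw [Finset.sum_image hinjOn, hw] at hle
    have : ∑ u ∈ range (T + K + T), S u ^ 2
        = ∑ u ∈ range (T + K + T),
            (∑ i ∈ range M, h ((a0 + (u : ZMod n) * d) + (i : ZMod n) * d)) ^ 2 := by
      apply Finset.sum_congr rfl
      intro u _
      rw [hSw u]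
    rw [this]
    exact hle
  -- arithmetic
  have hcf := closed_form' M hM1
  rw [← hT] at hcf
  have hfsum : ∑ v ∈ range T, f v = ∑ v ∈ range T, ((M : ℤ) - 2 * ((v : ℤ) + 1)) ^ 2 :=
    Finset.sum_congr rfl (fun v _ => hf v)
  rw [hfsum] at hlower
  have hKz : (K : ℤ) = (L : ℤ) - M + 1 := by
    rw [hK]
    push_cast [Nat.cast_sub hML]
    ring
  have hMpos : (0 : ℤ) < M := by exact_mod_cast hM1
  have hmain : (M : ℤ) * (3 * (M : ℤ) * L + 2) ≤ (M : ℤ) * (3 * n + 2 * (M : ℤ) ^ 2) := by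
    have h6 := le_trans hlower hupper
    rw [hKz] at h6
    nlinarith [h6, hcf]
  have hfin : 3 * (M : ℤ) * L + 2 ≤ 3 * n + 2 * (M : ℤ) ^ 2 :=
    le_of_mul_le_mul_left hmain hMpos
  exact_mod_cast hfin

/-- **Progression bound.**  If the first row `h` of a real circulant Hadamard matrix of order
`n` is constant on an arithmetic progression `a, a + d, ..., a + (L-1) d` of `L` distinct
positions, then `3 M L + 2 ≤ 3 n + 2 M^2` for all `1 ≤ M ≤ L`, and `3 L^2 + 4 ≤ 8 n`.
In particular (`d = 1`) every run of `L ≤ n` equal cyclically consecutive entries satisfies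
`3 L^2 + 4 ≤ 8 n`. -/
theorem result (n : ℕ) [NeZero n] (h : ZMod n → ℤ) (hH : IsCirculantHadamardRow n h) :
    (∀ (a d : ZMod n) (L : ℕ),
      (∀ i i' : ℕ, i < L → i' < L → (i : ZMod n) * d = (i' : ZMod n) * d → i = i') →
      (∀ i : ℕ, i < L → h (a + (i : ZMod n) * d) = h a) →
      (∀ M : ℕ, 1 ≤ M → M ≤ L → 3 * M * L + 2 ≤ 3 * n + 2 * M ^ 2) ∧
        3 * L ^ 2 + 4 ≤ 8 * n) ∧
    (∀ (a : ZMod n) (L : ℕ), L ≤ n → (∀ i : ℕ, i < L → h (a + (i : ZMod n)) = h a) →
      3 * L ^ 2 + 4 ≤ 8 * n) := by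
  have hnpos : 0 < n := Nat.pos_of_ne_zero (NeZero.ne n)
  have main : ∀ (a d : ZMod n) (L : ℕ),
      (∀ i i' : ℕ, i < L → i' < L → (i : ZMod n) * d = (i' : ZMod n) * d → i = i') →
      (∀ i : ℕ, i < L → h (a + (i : ZMod n) * d) = h a) →
      (∀ M : ℕ, 1 ≤ M → M ≤ L → 3 * M * L + 2 ≤ 3 * n + 2 * M ^ 2) ∧
        3 * L ^ 2 + 4 ≤ 8 * n := by
    intro a d L hinj hrun
    have hall : ∀ M : ℕ, 1 ≤ M → M ≤ L → 3 * M * L + 2 ≤ 3 * n + 2 * M ^ 2 :=
      fun M hM1 hML => ap_bound hH a d L hinj hrun M hM1 hML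
    refine ⟨hall, ?_⟩
    rcases Nat.eq_zero_or_pos L with hL0 | hLpos
    · subst hL0
      omega
    · -- choose M with |4 M - 3 L| ≤ 2
      obtain ⟨M, hM⟩ : ∃ M, M = (3 * L + 2) / 4 := ⟨_, rfl⟩
      have hM1 : 1 ≤ M := by omega
      have hML : M ≤ L := by omega
      have hb := hall M hM1 hML
      have hz : 3 * (M : ℤ) * L + 2 ≤ 3 * n + 2 * (M : ℤ) ^ 2 := by exact_mod_cast hb
      have h1 : (3 * (L : ℤ) - 2) ≤ 4 * (M : ℤ) := by
        have : 3 * L ≤ 4 * M + 2 := by omega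
        have : ((3 * L : ℕ) : ℤ) ≤ ((4 * M + 2 : ℕ) : ℤ) := by exact_mod_cast this
        push_cast at this
        linarith
      have h2 : 4 * (M : ℤ) ≤ 3 * (L : ℤ) + 2 := by
        have : 4 * M ≤ 3 * L + 2 := by omega
        have : ((4 * M : ℕ) : ℤ) ≤ ((3 * L + 2 : ℕ) : ℤ) := by exact_mod_cast this
        push_cast at this
        linarith
      have h3 : (4 * (M : ℤ) - 3 * L) ^ 2 ≤ 4 := by nlinarith
      have h4 : 3 * (L : ℤ) ^ 2 + 4 ≤ 8 * n := by nlinarith
      exact_mod_cast h4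
  refine ⟨main, ?_⟩
  intro a L hL hrun
  refine (main a 1 L ?_ ?_).2
  · intro i i' hi hi' e
    rw [mul_one, mul_one, ZMod.natCast_eq_natCast_iff'] at e
    rw [Nat.mod_eq_of_lt (by omega), Nat.mod_eq_of_lt (by omega)] at e
    exact e
  · intro i hi
    rw [mul_one]
    exact hrun i hi

end Vale.Agent.Results.P033.ProgressionBound
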