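import Mathlib
import Vale.Agent.Results.P033.RunBound
import Vale.Agent.Helper4.P033Sine

/-!
# P033 (circulant Hadamard conjecture): the sharp second-moment bound for runs and progressions

Let `h` be the first row of a real circulant Hadamard matrix of order `n`.  If `h` is constant
on `L` pairwise distinct positions `a, a + d, ..., a + (L-1) d` forming an arithmetic
progression in `ZMod n` (for `d = 1`: a run of `L` cyclically consecutive equal signs), then

  `1 ≤ n * sin (π / (2 L)) ^ 2`,   and hence   `4 L ^ 2 < π ^ 2 * n`, i.e. `L < (π / 2) * √n`.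

The first inequality is an equality for `n = 4`, `L = 3` (row `1, 1, 1, -1`).

The proof weighs the window `j, j + d, ..., j + (L-1) d` with the sine weights
`w i = sin ((2 i + 1) π / (2 L))`; vanishing of the autocorrelations gives the exact second moment
`n * ∑ w i ^ 2` of the weighted window sums, while the `L` windows that overlap the constant
progression in at least half of their length have weighted sums of absolute value at least
`|cos (r π / L)| / sin (π / (2 L))`, `r = 0, ..., L - 1`, and `∑ cos (r π / L) ^ 2 = ∑ w i ^ 2`.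
-/

namespace Vale.Agent.Results.P033.SineRunBound

open Finset
open Vale.Agent.Results.P033.RunBound
open Vale.Agent.Helper4.P033Sine

/-- the row `1, 1, 1, -1` of order four -/
def row4 : ZMod 4 → ℤ := fun j => if j = 3 then -1 else 1

theorem row4_hadamard : IsCirculantHadamardRow 4 row4 := by
  refine ⟨fun j => ?_, ?_⟩
  · unfold row4
    by_cases hj : j = 3 <;> simp [hj]
  · ext i j
    fin_cases i <;> fin_cases j <;>
      simp [circ, row4, Matrix.mul_apply, Matrix.one_apply, Fin.sum_univ_four] <;> decide

theorem result :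
    (∀ (n : ℕ) [NeZero n] (h : ZMod n → ℤ), IsCirculantHadamardRow n h →
      ∀ (a d : ZMod n) (L : ℕ), 1 ≤ L →
        (∀ i i' : ℕ, i < L → i' < L → a + i * d = a + i' * d → i = i') →
        (∀ i : ℕ, i < L → h (a + i * d) = h a) →
        1 ≤ (n : ℝ) * Real.sin (Real.pi / (2 * (L : ℝ))) ^ 2 ∧
          4 * (L : ℝ) ^ 2 < Real.pi ^ 2 * n) ∧
    (∃ h : ZMod 4 → ℤ, IsCirculantHadamardRow 4 h ∧
        (∀ i : ℕ, i < 3 → h (0 + i * 1) = h 0) ∧
        (4 : ℝ) * Real.sin (Real.pi / (2 * 3)) ^ 2 = 1) := by
  refine ⟨?_, ?_⟩
  · intro n _ h hH a d L hL1 hdist hrun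
    have hd : ∀ i i' : ℕ, i < L → i' < L → (i : ZMod n) * d = (i' : ZMod n) * d → i = i' := by
      intro i i' hi hi' he
      exact hdist i i' hi hi' (by rw [he])
    exact ⟨sine_bound hH a d L hL1 hd hrun, sine_bound_pi hH a d L hL1 hd hrun⟩
  · refine ⟨row4, row4_hadamard, ?_, ?_⟩
    · intro i hi
      interval_cases i <;> decide
    · have e : Real.pi / (2 * 3) = Real.pi / 6 := by ring
      rw [e, Real.sin_pi_div_six]
      norm_num

end Vale.Agent.Results.P033.SineRunBound
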