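import Mathlib
import Vale.Agent.Results.P033.RunBound

/-!
# P033 (circulant Hadamard conjecture): window sums of the first row

Let `h` be the first row of a real circulant Hadamard matrix of order `n` and let `m ≤ n`.
For a position `j` write `S j` for the cyclic window sum `h j + h (j+1) + ... + h (j+m-1)`.

* The squares of the `n` window sums add up to exactly `m * n`.
* For every integer `t ≥ 1` at most `m * n / t ^ 2` windows have `|S j| ≥ t`.
* At most `n / m` positions `j` have `h` constant on the window `j, ..., j+m-1`.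
-/

namespace Vale.Agent.Results.P033.WindowSums

open Finset
open Vale.Agent.Results.P033.RunBound

theorem result (n : ℕ) [NeZero n] (h : ZMod n → ℤ) (hH : IsCirculantHadamardRow n h)
    (m : ℕ) (hm : m ≤ n) :
    (∑ j : ZMod n, (∑ i ∈ Finset.range m, h (j + i)) ^ 2 = (m : ℤ) * n) ∧
    (∀ t : ℤ, 0 < t →
      t ^ 2 * ((Finset.univ.filter fun j : ZMod n =>
          t ≤ |∑ i ∈ Finset.range m, h (j + i)|).card : ℤ) ≤ (m : ℤ) * n) ∧
    m * (Finset.univ.filter fun j : ZMod n =>
        ∀ i ∈ Finset.range m, h (j + i) = h j).card ≤ n := by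
  have hw := window_sq_sum hH m hm
  have hcheb : ∀ t : ℤ, 0 < t →
      t ^ 2 * ((Finset.univ.filter fun j : ZMod n =>
          t ≤ |∑ i ∈ Finset.range m, h (j + i)|).card : ℤ) ≤ (m : ℤ) * n := by
    intro t ht
    rw [← hw]
    have h1 : ∑ j ∈ Finset.univ.filter (fun j : ZMod n =>
        t ≤ |∑ i ∈ Finset.range m, h (j + i)|), (∑ i ∈ Finset.range m, h (j + i)) ^ 2
        ≤ ∑ j : ZMod n, (∑ i ∈ Finset.range m, h (j + i)) ^ 2 :=
      Finset.sum_le_sum_of_subset_of_nonneg (Finset.subset_univ _) (fun _ _ _ => sq_nonneg _)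
    have h2 : ∑ j ∈ Finset.univ.filter (fun j : ZMod n =>
        t ≤ |∑ i ∈ Finset.range m, h (j + i)|), t ^ 2
        ≤ ∑ j ∈ Finset.univ.filter (fun j : ZMod n =>
        t ≤ |∑ i ∈ Finset.range m, h (j + i)|), (∑ i ∈ Finset.range m, h (j + i)) ^ 2 := by
      apply Finset.sum_le_sum
      intro j hj
      have hj' := (Finset.mem_filter.mp hj).2
      rw [← sq_abs (∑ i ∈ Finset.range m, h (j + i))]
      exact pow_le_pow_left₀ ht.le hj' 2
    rw [Finset.sum_const, nsmul_eq_mul] at h2
    linarith
  refine ⟨hw, hcheb, ?_⟩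
  rcases Nat.eq_zero_or_pos m with hm0 | hm0
  · subst hm0
    simp
  · have hmz : (0 : ℤ) < (m : ℤ) := by exact_mod_cast hm0
    have hsub : (Finset.univ.filter fun j : ZMod n =>
        ∀ i ∈ Finset.range m, h (j + i) = h j) ⊆
        (Finset.univ.filter fun j : ZMod n =>
          (m : ℤ) ≤ |∑ i ∈ Finset.range m, h (j + i)|) := by
      intro j hj
      have hj' := (Finset.mem_filter.mp hj).2
      rw [Finset.mem_filter]
      refine ⟨Finset.mem_univ _, ?_⟩
      rw [Finset.sum_congr rfl hj', Finset.sum_const, Finset.card_range, nsmul_eq_mul, abs_mul]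
      have habs : |h j| = 1 := by
        rcases hH.1 j with hj1 | hj1 <;> simp [hj1]
      rw [habs, mul_one, Nat.abs_cast]
    have hc := hcheb (m : ℤ) hmz
    have hcard : ((Finset.univ.filter fun j : ZMod n =>
        ∀ i ∈ Finset.range m, h (j + i) = h j).card : ℤ) ≤
        ((Finset.univ.filter fun j : ZMod n =>
          (m : ℤ) ≤ |∑ i ∈ Finset.range m, h (j + i)|).card : ℤ) := by
      exact_mod_cast Finset.card_le_card hsub
    have h3 : (m : ℤ) * ((m : ℤ) * ((Finset.univ.filter fun j : ZMod n =>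
        ∀ i ∈ Finset.range m, h (j + i) = h j).card : ℤ)) ≤ (m : ℤ) * n := by
      nlinarith
    have h4 := le_of_mul_le_mul_left h3 hmz
    exact_mod_cast h4

end Vale.Agent.Results.P033.WindowSums
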